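import Vale.Agent.P141.H610.Cut

/-!
# P141, line W, module REC: the end of the recursion

After the rounds of `H8/Rec` there are two block slots of very small energy.  `EndHyp`: the END
estimate for two block slots and the moving function `P`; `MovHyp`: the black box for the
difference of `P` and its end value.  `rec_end`: the total of a region for two static functions.
`fam_windows`: a block pair as a finite family of windows with static functions.
-/

namespace Vale.Agent.P141.H610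

open Finset
open Vale.Agent.P141.H315 Vale.Agent.P141.PL.H318 Vale.Agent.P141.H347 Vale.Agent.P141.H297
open Vale.Agent.P141.H8

noncomputable section

open scoped Classical

variable {X ι α : Type*} {g : Grid X}

/-- **The END estimate**, for every region below a used top: two block slots of energy `e` and
hereditary packing `K`, the moving function `P`, one static function `G1`. -/
def EndHyp (nv : NV g α) (gd : ℕ → X → Prop) (G1 : X → ℝ) (P : ℕ → X → ℝ) (e K c : ℝ) : Prop :=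
  ∀ L x ud, Rgn g gd L x ud → ud L x → ∀ t F, Fam2 g ud L t F e K →
    T4 nv ud P (st G1) (mv t (F 0)) (mv t (F 1)) ≤ c * cd g L x

/-- **The black box** for the difference of the end value `GP` and the moving function `P`. -/
def MovHyp (nv : NV g α) (gd : ℕ → X → Prop) (GP G1 : X → ℝ) (P : ℕ → X → ℝ) (e K c : ℝ) :
    Prop :=
  ∀ L x ud, Rgn g gd L x ud → ud L x → ∀ t F, Fam2 g ud L t F e K →
    T4 nv ud (fun k => GP - P k) (st G1) (mv t (F 0)) (mv t (F 1)) ≤ c * cd g L x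

variable {nv : NV g α} {gd : ℕ → X → Prop} {GP G1 : X → ℝ} {P : ℕ → X → ℝ} {Cg : ℝ}

/-- **The recursion with its end.** -/
theorem rec_end {S : ℕ → Fin 2 → CSys g ι} {w : ∀ i j, LW (S i j)} (hC : 0 ≤ Cg) {B : ℝ}
    (hB : ∀ k x, cd g (k + 1) x ≤ B * cd g k x) {e e' p q r K : ℕ → ℝ} {n : ℕ}
    (hM : ∀ i < n, ∀ j, Mix (S i j) Cg) (he' : ∀ i < n, 0 < e' i) (hee : ∀ i < n, e' i ≤ e i)
    (hes : ∀ i < n, e (i + 1) = K1 B Cg * e' i) (hK0 : K 0 = 1)
    (hKs : ∀ i < n, K (i + 1) = (K i + 1) * K2 B (e i) (e' i))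
    (hp : ∀ i < n, 0 ≤ p i) (hq : ∀ i < n, 0 ≤ q i) (hr : ∀ i < n, 0 ≤ r i)
    (hR : ∀ i < n, Rnd nv gd GP G1 P (S i) (w i) (K1 B Cg * e i) Cg (p i) (q i) (r i))
    {cM cE : ℝ} (hMov : MovHyp nv gd GP G1 P (e n) (K n) cM)
    (hEnd : EndHyp nv gd G1 P (e n) (K n) cE)
    {L : ℕ} {x : X} {ud : ℕ → X → Prop} (hU : Rgn g gd L x ud) (hx : ud L x)
    {F G : X → ℝ} (hF : En g ud F (e 0)) (hG : En g ud G (e 0)) :
    T4 nv ud (st GP) (st G1) (st F) (st G) ≤
      (∑ i ∈ range n, (32 * e i * p i + 2 * (q i + r i)) * K (i + 1) + cM + cE) * cd g L x := by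
  obtain ⟨t', F', h1, h2⟩ :=
    rounds_static hC hB hM he' hee hes hK0 hKs hp hq hr hR hU hx hF hG
  have h3 := T4_split1 (nv := nv) (ud := ud) (GP := GP) (P := P) (st G1)
    (mv t' (F' 0)) (mv t' (F' 1))
  have h4 := hEnd L x ud hU hx t' F' h1
  have h5 := hMov L x ud hU hx t' F' h1
  rw [add_mul, add_mul]
  linarith

/-! ### A block pair as a finite family of windows -/

/-- the tops of the windows of a region: one point of each top cell -/
def topSet (g : Grid X) (ud : ℕ → X → Prop) (t : ℕ → X → ℕ) (L : ℕ) (x : X) :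
    Finset (ℕ × Finset X) :=
  (range (L + 1)).biUnion fun i =>
    ((g.cube L x).filter fun z => ud i z ∧ t i z = i).image fun z => (i, g.cube i z)

theorem mem_topSet {ud : ℕ → X → Prop} {t : ℕ → X → ℕ} {L : ℕ} {x : X} {T : ℕ × Finset X} :
    T ∈ topSet g ud t L x ↔ ∃ z ∈ g.cube L x, T.1 ≤ L ∧ ud T.1 z ∧ t T.1 z = T.1 ∧
      T.2 = g.cube T.1 z := by
  unfold topSet
  simp only [mem_biUnion, mem_image, mem_filter, mem_range]
  constructor
  · rintro ⟨i, hi, z, ⟨h1, h2, h3⟩, rfl⟩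
    exact ⟨z, h1, by simpa using Nat.lt_succ_iff.1 hi, h2, h3, rfl⟩
  · rintro ⟨z, h1, h2, h3, h4, h5⟩
    exact ⟨T.1, Nat.lt_succ_of_le h2, z, ⟨h1, h3, h4⟩, Prod.ext rfl h5.symm⟩

/-- the measure of the tops is the packing sum -/
theorem sum_topSet {ud : ℕ → X → Prop} {t : ℕ → X → ℕ} {L : ℕ} {x : X}
    (hud : ∀ k y z, z ∈ g.cube k y → (ud k z ↔ ud k y)) (hl : Lab g L t) :
    ∑ T ∈ topSet g ud t L x, ((T.2.card : ℕ) : ℝ) = H8.tops g ud t L x := by
  unfold topSet H8.tops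
  rw [sum_biUnion]
  · refine sum_congr rfl fun i hi => ?_
    rw [mem_range] at hi
    have hiL : i ≤ L := by omega
    rw [← sum_filter]
    -- group the points by their cubes
    rw [← sum_fiberwise_of_maps_to (s := (g.cube L x).filter fun z => ud i z ∧ t i z = i)
      (t := ((g.cube L x).filter fun z => ud i z ∧ t i z = i).image fun z => (i, g.cube i z))
      (g := fun z => (i, g.cube i z)) (fun z hz => mem_image_of_mem _ hz)]
    refine sum_congr rfl fun T hT => ?_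
    obtain ⟨z, hz, rfl⟩ := mem_image.1 hT
    rw [sum_const, nsmul_eq_mul, mul_one]
    congr 2
    rw [mem_filter] at hz
    ext y
    simp only [mem_filter, Prod.mk.injEq, true_and]
    constructor
    · intro hy
      exact ⟨⟨g.cube_subset hiL hz.1 hy, (hud i z y hy).2 hz.2.1, by
        rw [hl.const i hiL z y hy]; exact hz.2.2⟩, g.eq_of_mem i z y hy⟩
    · rintro ⟨_, hy⟩
      rw [← hy]; exact g.mem i y
  · intro i _ j _ hij
    rw [Function.onFun, disjoint_left]
    intro T h1 h2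
    obtain ⟨z, _, rfl⟩ := mem_image.1 h1
    obtain ⟨z', _, h3⟩ := mem_image.1 h2
    exact hij (Prod.ext_iff.1 h3).1.symm

/-- a point of a top cell (`T.2` is not empty for tops) -/
def ptOf (x : X) (T : ℕ × Finset X) : X := if h : T.2.Nonempty then h.choose else x

theorem ptOf_spec {ud : ℕ → X → Prop} {t : ℕ → X → ℕ} {L : ℕ} {x : X}
    (hud : ∀ k y z, z ∈ g.cube k y → (ud k z ↔ ud k y)) (hl : Lab g L t)
    {T : ℕ × Finset X} (hT : T ∈ topSet g ud t L x) :
    T.1 ≤ L ∧ ptOf x T ∈ g.cube L x ∧ ud T.1 (ptOf x T) ∧ t T.1 (ptOf x T) = T.1 ∧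
      T.2 = g.cube T.1 (ptOf x T) := by
  obtain ⟨z, h1, h2, h3, h4, h5⟩ := mem_topSet.1 hT
  have hne : T.2.Nonempty := by rw [h5]; exact ⟨z, g.mem _ z⟩
  have h6 : ptOf x T ∈ T.2 := by
    unfold ptOf; rw [dif_pos hne]; exact hne.choose_spec
  rw [h5] at h6
  refine ⟨h2, g.cube_subset h2 h1 h6, (hud _ _ _ h6).2 h3, ?_, ?_⟩
  · rw [hl.const _ h2 z _ h6]; exact h4
  · rw [h5, g.eq_of_mem _ _ _ h6]

/-- **A block pair as a finite family of windows with static functions.** The regions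
`Wr g ud t T.1 (ptOf x T)` are pairwise disjoint regions of used cells. -/
theorem fam_windows {L : ℕ} {x : X} {ud : ℕ → X → Prop} (hU : Rgn g gd L x ud)
    {t : ℕ → X → ℕ} {F : Fin 2 → ℕ → X → ℝ} {e K : ℝ} (hx : ud L x) (hF : Fam2 g ud L t F e K)
    (A B : ℕ → X → ℝ) :
    (T4 nv ud A B (mv t (F 0)) (mv t (F 1)) = ∑ T ∈ topSet g ud t L x,
      T4 nv (Wr g ud t T.1 (ptOf x T)) A B (st (F 0 T.1)) (st (F 1 T.1))) ∧
    (∀ T ∈ topSet g ud t L x, Rgn g gd T.1 (ptOf x T) (Wr g ud t T.1 (ptOf x T)) ∧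
      Wr g ud t T.1 (ptOf x T) T.1 (ptOf x T) ∧ (T.2.card : ℝ) = cd g T.1 (ptOf x T) ∧
      ∀ j, En g (Wr g ud t T.1 (ptOf x T)) (F j T.1) e) ∧
    (∀ T ∈ topSet g ud t L x, ∀ T' ∈ topSet g ud t L x, T ≠ T' → ∀ k y,
      Wr g ud t T.1 (ptOf x T) k y → ¬ Wr g ud t T'.1 (ptOf x T') k y) ∧
    ∑ T ∈ topSet g ud t L x, cd g T.1 (ptOf x T) ≤ K * cd g L x := by
  have hl := hF.lab
  have hud := hU.const
  have hcard : ∀ T ∈ topSet g ud t L x, (T.2.card : ℝ) = cd g T.1 (ptOf x T) := by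
    intro T hT
    obtain ⟨_, _, _, _, h5⟩ := ptOf_spec hud hl hT
    unfold cd; rw [← h5]
  -- uniqueness of the window of a used cell
  have huniq : ∀ T ∈ topSet g ud t L x, ∀ T' ∈ topSet g ud t L x, ∀ k y,
      Wr g ud t T.1 (ptOf x T) k y → Wr g ud t T'.1 (ptOf x T') k y → T = T' := by
    rintro T hT T' hT' k y ⟨_, h2, h3, h4⟩ ⟨_, h2', h3', h4'⟩
    obtain ⟨_, _, _, _, h5⟩ := ptOf_spec hud hl hT
    obtain ⟨_, _, _, _, h5'⟩ := ptOf_spec hud hl hT'
    have h6 : T.1 = T'.1 := by rw [← h4, h4']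
    refine Prod.ext h6 ?_
    rw [h5, h5', ← g.eq_of_mem _ _ _ h3, ← g.eq_of_mem _ _ _ h3', h6]
  refine ⟨?_, ?_, ?_, ?_⟩
  · -- the total
    unfold T4
    rw [sum_comm]
    refine sum_congr rfl fun N _ => ?_
    by_cases hN : ud (nv.sc N) (nv.pt N)
    · set k := nv.sc N with hk
      set y := nv.pt N with hy
      obtain ⟨hkL, hyL⟩ := hU.bel k y hN
      set Λ := t k y with hΛ
      have hkΛ : k ≤ Λ := hl.ge k hkL y
      have hΛL : Λ ≤ L := hl.le k hkL y
      have ht : t Λ y = Λ := hl.btw k hkL y Λ hkΛ le_rfl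
      have hTm : ((Λ, g.cube Λ y) : ℕ × Finset X) ∈ topSet g ud t L x :=
        mem_topSet.2 ⟨y, hyL, hΛL, hU.up' hkΛ hΛL hN, ht, rfl⟩
      obtain ⟨_, _, _, _, h5⟩ := ptOf_spec hud hl hTm
      have hW : Wr g ud t Λ (ptOf x (Λ, g.cube Λ y)) k y := by
        refine ⟨hN, hkΛ, ?_, rfl⟩
        have h6 : g.cube Λ y = g.cube Λ (ptOf x (Λ, g.cube Λ y)) := h5
        rw [← h6]; exact g.mem Λ y
      rw [sum_eq_single_of_mem _ hTm, if_pos hN, if_pos hW]
      · congr 1
        refine nv.congr N _ _ _ _ _ _ _ _ fun z hz => ⟨rfl, rfl, ?_, ?_⟩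
        all_goals
          simp only [mv, st]
          rw [hl.const k hkL y z hz]
      · intro T hT hne
        rw [if_neg fun h => hne (huniq T hT _ hTm k y h hW)]
    · rw [if_neg hN, sum_eq_zero fun T _ => if_neg fun h => hN h.1]
  · intro T hT
    obtain ⟨h1, h2, h3, h4, h5⟩ := ptOf_spec hud hl hT
    refine ⟨hU.win hl h1 _, ⟨h3, le_rfl, g.mem _ _, h4⟩, hcard T hT, fun j k y => ?_⟩
    rintro ⟨h6, h7, h8, h9⟩
    have := hF.en j k y h6
    rwa [h9] at this
  · intro T hT T' hT' hne k y h h'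
    exact hne (huniq T hT T' hT' k y h h')
  · rw [← sum_congr rfl hcard, sum_topSet hud hl]
    exact hF.pack L x hx

end

end Vale.Agent.P141.H610
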