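import Vale.Agent.P141.H8.Lab

/-!
# P141, line W, module REC (one-cell recursion), R3: composition of two systems of labels

`tp`: labels on the cells below `(L, x)`; `tpo Λ`: labels inside the windows with the top scale `Λ`.
`tp' k y = tpo (tp k y) k y` are labels again, with hereditary packing `(K + 1) * K2`.
-/

namespace Vale.Agent.P141.H610

open Finset
open Vale.Agent.P141.H315 Vale.Agent.P141.PL.H318 Vale.Agent.P141.H347 Vale.Agent.P141.H297
open Vale.Agent.P141.H8

noncomputable section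

open scoped Classical

variable {X : Type*} {g : Grid X} {gd ud : ℕ → X → Prop} {L : ℕ} {x : X} {tp : ℕ → X → ℕ}
  {tpo : ℕ → ℕ → X → ℕ}

/-- **Composition of labels.** -/
theorem lab_comp (h : Lab g L tp) (ho : ∀ Λ ≤ L, Lab g Λ (tpo Λ)) :
    Lab g L (fun k y => tpo (tp k y) k y) where
  const k hk x y hy := by
    have h1 := h.const k hk x y hy
    change tpo (tp k y) k y = tpo (tp k x) k x
    rw [h1]
    exact (ho _ (h.le k hk x)).const k (h.ge k hk x) x y hy
  ge k hk x := (ho _ (h.le k hk x)).ge k (h.ge k hk x) x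
  le k hk x := ((ho _ (h.le k hk x)).le k (h.ge k hk x) x).trans (h.le k hk x)
  btw k hk x i hki hi := by
    have h0 := ho _ (h.le k hk x)
    have h1 := h0.le k (h.ge k hk x) x
    have h2 : tp i x = tp k x := h.btw k hk x i hki (hi.trans h1)
    change tpo (tp i x) i x = tpo (tp k x) k x
    rw [h2]
    exact h0.btw k (h.ge k hk x) x i hki hi

/-- **Packing of composed labels.** -/
theorem tops_comp (hR : Rgn g gd L x ud) (h : Lab g L tp) {K K2 : ℝ} (hK2 : 0 ≤ K2)
    (hK : ∀ k y, ud k y → tops g ud tp k y ≤ K * cd g k y)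
    (hKo : ∀ Λ ≤ L, ∀ k ≤ Λ, ∀ y, ud k y → tp k y = Λ →
      tops g (fun i z => i ≤ Λ ∧ ud i z ∧ tp i z = Λ) (tpo Λ) k y ≤ K2 * cd g k y) {k : ℕ} {y : X}
    (hy : ud k y) : tops g ud (fun k y => tpo (tp k y) k y) k y ≤ (K + 1) * K2 * cd g k y := by
  have hkL : k ≤ L := (hR.bel k y hy).1
  set Λ0 := tp k y with hΛ0
  -- the indicator of a top of the window with the top scale `Λ`
  set c : ℕ → ℕ → X → ℝ := fun Λ i z =>
    if (i ≤ Λ ∧ ud i z ∧ tp i z = Λ) ∧ tpo Λ i z = i then 1 else 0 with hc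
  have hc0 : ∀ Λ i z, 0 ≤ c Λ i z := fun Λ i z => by
    simp only [hc]; split_ifs <;> norm_num
  have hc1 : ∀ Λ i z, Λ < i → c Λ i z = 0 := fun Λ i z hi => by
    simp only [hc]; exact if_neg fun h' => absurd h'.1.1 (by omega)
  -- one term
  have h1 : ∀ i ∈ range (k + 1), ∀ z ∈ g.cube k y,
      (if ud i z ∧ tpo (tp i z) i z = i then (1 : ℝ) else 0) ≤
        c Λ0 i z + ∑ Λ ∈ range k, c Λ i z := by
    intro i hi z hz
    rw [mem_range] at hi
    have hn : 0 ≤ ∑ Λ ∈ range k, c Λ i z := sum_nonneg fun _ _ => hc0 _ _ _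
    split_ifs with h2
    · obtain ⟨h3, h4⟩ := h2
      have hiL : i ≤ L := by omega
      have h5 : i ≤ tp i z := h.ge i hiL z
      have h6 : c (tp i z) i z = 1 := by
        exact if_pos ⟨⟨h5, h3, rfl⟩, h4⟩
      rcases Nat.lt_or_ge (tp i z) k with h7 | h7
      · have h8 := single_le_sum (f := fun Λ => c Λ i z) (fun Λ _ => hc0 Λ i z)
          (mem_range.2 h7)
        rw [h6] at h8
        have := hc0 Λ0 i z
        linarith
      · have h8 : tp k z = tp i z := h.btw i hiL z k (by omega) h7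
        have h9 : tp k z = Λ0 := h.const k hkL y z hz
        rw [← h9, h8, h6]
        linarith
    · have := hc0 Λ0 i z
      linarith
  have h2 : tops g ud (fun k y => tpo (tp k y) k y) k y ≤
      ∑ i ∈ range (k + 1), ∑ z ∈ g.cube k y, c Λ0 i z +
      ∑ Λ ∈ range k, ∑ z ∈ g.cube k y, ∑ i ∈ range (Λ + 1), c Λ i z := by
    have h3 : tops g ud (fun k y => tpo (tp k y) k y) k y ≤
        ∑ i ∈ range (k + 1), ∑ z ∈ g.cube k y, (c Λ0 i z + ∑ Λ ∈ range k, c Λ i z) := by
      unfold tops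
      exact sum_le_sum fun i hi => sum_le_sum fun z hz => by
        convert h1 i hi z hz
    refine h3.trans (le_of_eq ?_)
    simp only [sum_add_distrib]
    congr 1
    calc ∑ i ∈ range (k + 1), ∑ z ∈ g.cube k y, ∑ Λ ∈ range k, c Λ i z
        = ∑ i ∈ range (k + 1), ∑ Λ ∈ range k, ∑ z ∈ g.cube k y, c Λ i z :=
          sum_congr rfl fun i _ => sum_comm
      _ = ∑ Λ ∈ range k, ∑ i ∈ range (k + 1), ∑ z ∈ g.cube k y, c Λ i z := sum_comm
      _ = ∑ Λ ∈ range k, ∑ z ∈ g.cube k y, ∑ i ∈ range (k + 1), c Λ i z :=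
          sum_congr rfl fun Λ _ => sum_comm
      _ = _ := by
          refine sum_congr rfl fun Λ hΛ => sum_congr rfl fun z _ => ?_
          rw [mem_range] at hΛ
          refine (sum_subset (range_mono (by omega)) fun i _ hi => hc1 Λ i z ?_).symm
          rw [mem_range] at hi
          omega
  -- the window of the cell itself
  have h3 : ∑ i ∈ range (k + 1), ∑ z ∈ g.cube k y, c Λ0 i z ≤ K2 * cd g k y := by
    refine le_trans (le_of_eq ?_) (hKo Λ0 (h.le k hkL y) k (h.ge k hkL y) y hy rfl)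
    unfold tops
    exact sum_congr rfl fun i _ => sum_congr rfl fun z _ => by simp only [hc]; congr
  -- the windows below
  have h4 : ∀ Λ ∈ range k, ∑ z ∈ g.cube k y, ∑ i ∈ range (Λ + 1), c Λ i z ≤
      ∑ z ∈ g.cube k y, K2 * (if ud Λ z ∧ tp Λ z = Λ then (1 : ℝ) else 0) := by
    intro Λ hΛ
    rw [mem_range] at hΛ
    refine g.sum_le_sum_of_cubes hΛ.le y _ _ fun z _ => ?_
    by_cases hz : ud Λ z ∧ tp Λ z = Λ
    · have h5 : ∀ z' ∈ g.cube Λ z, ud Λ z' ∧ tp Λ z' = Λ := fun z' hz' =>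
        ⟨(hR.const Λ z z' hz').2 hz.1, by rw [h.const Λ (by omega) z z' hz']; exact hz.2⟩
      have h6 := hKo Λ (by omega) Λ le_rfl z hz.1 hz.2
      have h7 : ∑ z' ∈ g.cube Λ z, K2 * (if ud Λ z' ∧ tp Λ z' = Λ then (1 : ℝ) else 0) =
          K2 * cd g Λ z := by
        rw [sum_congr rfl fun z' hz' => by rw [if_pos (h5 z' hz')], sum_const, nsmul_eq_mul]
        unfold cd; ring
      rw [h7]
      refine le_trans (le_of_eq ?_) h6
      unfold tops
      rw [sum_comm]
      exact sum_congr rfl fun i _ => sum_congr rfl fun z _ => by simp only [hc]; congr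
    · have h5 : ∑ z' ∈ g.cube Λ z, ∑ i ∈ range (Λ + 1), c Λ i z' = 0 := by
        refine sum_eq_zero fun z' hz' => sum_eq_zero fun i hi => ?_
        rw [mem_range] at hi
        simp only [hc]
        refine if_neg fun h' => hz ?_
        obtain ⟨⟨h6, h7, h8⟩, _⟩ := h'
        have h9 : ud Λ z' := hR.up' h6 (by omega) h7
        have h10 : tp Λ z' = Λ := by
          rw [h.btw i (by omega) z' Λ h6 (by omega), h8]
        exact ⟨(hR.const Λ z z' hz').1 h9, by rw [← h.const Λ (by omega) z z' hz']; exact h10⟩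
      rw [h5]
      exact sum_nonneg fun z' _ => mul_nonneg hK2 (by split_ifs <;> norm_num)
  have h5 : ∑ Λ ∈ range k, ∑ z ∈ g.cube k y, ∑ i ∈ range (Λ + 1), c Λ i z ≤
      K2 * (K * cd g k y) := by
    refine (sum_le_sum h4).trans ?_
    simp only [← mul_sum]
    refine mul_le_mul_of_nonneg_left ?_ hK2
    refine le_trans ?_ (hK k y hy)
    unfold tops
    refine sum_le_sum_of_subset_of_nonneg (range_mono (Nat.le_succ k)) fun i _ _ =>
      sum_nonneg fun z _ => by split_ifs <;> norm_num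
  nlinarith

end

end Vale.Agent.P141.H610
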