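import Vale.Agent.P141.H610.MovH
import Vale.Agent.P141.H748.MbbW
import Vale.Agent.P141.H8.Num

/-!
# P141, line W, module REC: the recursion with its end and its numbers

`boxHyp_mbbW`: `BoxHyp` of `MovH` from `H748/MbbW` (root estimate `Root2`).
`rec_num_end`: `H8/Num.rec_num` + black box + END.
-/

namespace Vale.Agent.P141.H610

open Finset
open Vale.Agent.P141.H315 Vale.Agent.P141.PL.H318 Vale.Agent.P141.H347 Vale.Agent.P141.H297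
open Vale.Agent.P141.H8
open Vale.Agent.P141.PL.H571 (W)
open Vale.Agent.P141.PL.H95 (gr mem_gr card_gr)
open Vale.Agent.P141.PL.H855 (CBlk0 CSlot0 N4 TR n4T)

noncomputable section

open scoped Classical

/-- **The black box on the regions of a window** of scale at most `n`, from the root estimate. -/
theorem boxHyp_mbbW : ∃ C : ℝ, 0 ≤ C ∧ ∀ (n : ℕ) (P : ℝ), 0 ≤ P → H347.Root2 n P →
    ∀ (s : ℤ) {o : ℤ} (ho : o = 1 ∨ o = -1) (nd : Finset (ℕ × ℤ)) (le : ℕ × ℤ → ℤ)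
      (hsub : ∀ N ∈ nd, W N.1 N.2 ⊆ (gr 7 s).cube N.1 (le N)), (∀ N ∈ nd, 1 ≤ N.1) →
    ∀ gd : ℕ → ℤ → Prop, (∀ k y, gd k y → k ≤ n) →
      BoxHyp (n4T s ho nd le hsub) gd (C * P) := by
  obtain ⟨C, hC, h⟩ := H748.mbbW
  exact ⟨C, hC, fun n P hP hr s o ho nd le hsub h1 gd hgd L x ud hR hx A S hA =>
    h n P hP hr s ho nd le hsub h1 L x gd ud (hgd L x (hR.sub L x hx)) hR A S hA⟩

theorem cd_gr_succ (s : ℤ) (k : ℕ) (y : ℤ) : cd (gr 7 s) (k + 1) y ≤ 2 * cd (gr 7 s) k y := by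
  rw [cd_gr, cd_gr]
  exact le_of_eq (by ring)

variable {ι α : Type*} {s : ℤ} {nv : N4 (gr 7 s) α} {gd : ℕ → ℤ → Prop} {CP : ℝ}

/-- **The recursion with its numbers and its end** on the grid `gr 7 s`: `n` rounds with the ratio
`τ`, start energy `E`; payments `Pm`, `Qm`; the size `SP` of the difference of `P` and its end
value; `cE` = the END estimate at the energy `E (K1 τ) ^ n` and packing `K`. -/
theorem rec_num_end {σ : Equiv.Perm (Fin 4)} {GP G1 : ℤ → ℝ} {P : ℕ → ℤ → ℝ} {Cg τ E : ℝ}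
    {S : ℕ → Fin 2 → CSys (gr 7 s) ι} {w : ∀ i j, LW (S i j)} (hC : 0 ≤ Cg) {n : ℕ}
    (hM : ∀ i < n, ∀ j, Mix (S i j) Cg) (hτ : 0 < τ) (hτ1 : τ ≤ 1) (hE : 0 < E)
    {p q r : ℕ → ℝ} {Pm Qm : ℝ} (hPm : 0 ≤ Pm) (hQm : 0 ≤ Qm)
    (hp0 : ∀ i < n, 0 ≤ p i) (hq0 : ∀ i < n, 0 ≤ q i) (hr0 : ∀ i < n, 0 ≤ r i)
    (hp : ∀ i < n, p i ≤ Pm) (hq : ∀ i < n, q i + r i ≤ Qm * ee 2 Cg τ E i)
    (hR : ∀ i < n, Rnd (nv.toNV σ) gd GP G1 P (S i) (w i) (K1 2 Cg * ee 2 Cg τ E i) Cg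
      (p i) (q i) (r i))
    (hCP : 0 ≤ CP) (hb : BoxHyp nv gd CP) {SP eG : ℝ} (hSP : 0 ≤ SP) (heG : 0 < eG)
    (hPs : ∀ L x ud, Rgn (gr 7 s) gd L x ud → ud L x →
      CSlot0 s L (cutR ud fun k => GP - P k) SP)
    (hG1 : En (gr 7 s) gd G1 eG) {cE : ℝ}
    (hEnd : ∀ K : ℝ, 1 ≤ K → E * (K1 2 Cg * τ) ^ n * K ≤ E * (K1 2 Cg * MM 2) ^ n →
      EndHyp (nv.toNV σ) gd G1 P (E * (K1 2 Cg * τ) ^ n) K cE)
    {L : ℕ} {x : ℤ} {ud : ℕ → ℤ → Prop} (hU : Rgn (gr 7 s) gd L x ud) (hx : ud L x)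
    {F G : ℤ → ℝ} (hF : En (gr 7 s) ud F E) (hG : En (gr 7 s) ud G E) :
    T4 (nv.toNV σ) ud (st GP) (st G1) (st F) (st G) ≤
      ((32 * Pm + 2 * Qm) * (n * (E * (K1 2 Cg * MM 2) ^ n * (MM 2 / τ))) +
        CP * (SP * (68 * √eG) * (10 ^ 4 * (E * (K1 2 Cg * MM 2) ^ n))) / 128 + cE) *
        cd (gr 7 s) L x := by
  obtain ⟨t', F', K, h1, h2, h3, h4⟩ := rec_num hC (fun k y => cd_gr_succ s k y) hM hτ hτ1 hE
    hPm hQm hp0 hq0 hr0 hp hq hR hU hx hF hG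
  have hk := K1_ge (B := 2) (by norm_num) hC
  have he : 0 < E * (K1 2 Cg * τ) ^ n := by positivity
  have h5 := T4_split1 (nv := nv.toNV σ) (ud := ud) (GP := GP) (P := P) (st G1)
    (mv t' (F' 0)) (mv t' (F' 1))
  have h6 := hEnd K h2 h3 L x ud hU hx t' F' h1
  have h7 := movHyp_of_box hb σ heG he h2 hPs hG1 L x ud hU hx t' F' h1
  have hcd := H347.cd_pos (gr 7 s) L x
  have h8 : CP * (SP * (68 * √eG) * (10 ^ 4 * (E * (K1 2 Cg * τ) ^ n * K))) / 128 *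
      cd (gr 7 s) L x ≤
      CP * (SP * (68 * √eG) * (10 ^ 4 * (E * (K1 2 Cg * MM 2) ^ n))) / 128 * cd (gr 7 s) L x := by
    refine mul_le_mul_of_nonneg_right ?_ hcd.le
    refine div_le_div_of_nonneg_right ?_ (by norm_num)
    refine mul_le_mul_of_nonneg_left ?_ hCP
    refine mul_le_mul_of_nonneg_left ?_ (by positivity)
    linarith
  rw [add_mul, add_mul]
  linarith

end

end Vale.Agent.P141.H610
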