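import Vale.Agent.P141.H8.Lab

/-!
# P141, line W, module REC (one-cell recursion), R3: the static pieces of a window

For a family of paths on a region `ud`, the labels `tp` of `H297` and a window with the top cell
`(Λ, z)`: energies of the END value, of the value at the top, of their difference, uniformity of the
END value, and the packing of the tops.
-/

namespace Vale.Agent.P141.H610

open Finset
open Vale.Agent.P141.H315 Vale.Agent.P141.PL.H318 Vale.Agent.P141.H347 Vale.Agent.P141.H297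
open Vale.Agent.P141.H8

noncomputable section

open scoped Classical

variable {X ι : Type*} {g : Grid X}

theorem en_mono {ud ud' : ℕ → X → Prop} {F : X → ℝ} {c c' : ℝ} (h : En g ud F c)
    (hsub : ∀ k y, ud' k y → ud k y) (hc : c ≤ c') : En g ud' F c' := fun k y hy =>
  (h k y (hsub k y hy)).trans
    (mul_le_mul_of_nonneg_right hc (Vale.Agent.P141.H297.cd_pos g k y).le)

theorem en_win {ud : ℕ → X → Prop} {F : X → ℝ} {c : ℝ} (h : En g ud F c) (tp : ℕ → X → ℕ)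
    (Λ : ℕ) (z : X) : En g (Wr g ud tp Λ z) F c := fun k y hy => h k y hy.1

theorem un_win {S : CSys g ι} {ud : ℕ → X → Prop} {F : X → ℝ} {c : ℝ} (h : Un S c ud F)
    (tp : ℕ → X → ℕ) (Λ : ℕ) (z : X) : Un S c (Wr g ud tp Λ z) F := fun k y hy => h k y hy.1

theorem en_neg {ud : ℕ → X → Prop} {F : X → ℝ} {c : ℝ} (h : En g ud F c) :
    En g ud (-F) c := fun k y hy => by
  have h1 : dot (g.cube k y) (-F) (-F) = dot (g.cube k y) F F := by
    unfold dot
    exact sum_congr rfl fun z _ => by simp only [Pi.neg_apply]; ring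
  rw [h1]; exact h k y hy

theorem en_add {ud : ℕ → X → Prop} {F G : X → ℝ} {c d : ℝ} (h : En g ud F c)
    (h' : En g ud G d) : En g ud (F + G) (2 * c + 2 * d) := fun k y hy => by
  have h1 : dot (g.cube k y) (F + G) (F + G) ≤
      2 * dot (g.cube k y) F F + 2 * dot (g.cube k y) G G := by
    unfold dot
    rw [mul_sum, mul_sum, ← sum_add_distrib]
    refine sum_le_sum fun z _ => ?_
    simp only [Pi.add_apply]
    nlinarith [sq_nonneg (F z - G z)]
  have h2 := h k y hy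
  have h3 := h' k y hy
  nlinarith

theorem en_sub {ud : ℕ → X → Prop} {F G : X → ℝ} {c d : ℝ} (h : En g ud F c)
    (h' : En g ud G d) : En g ud (F - G) (2 * c + 2 * d) := by
  rw [sub_eq_add_neg]
  exact en_add h (en_neg h')

theorem dot_self_eq (Q : Finset X) (F : X → ℝ) : dot Q F F = ∑ y ∈ Q, F y ^ 2 := by
  unfold dot
  exact sum_congr rfl fun y _ => by ring

variable {J : Type*} [Fintype J] {S : J → CSys g ι} {w : ∀ j, LW (S j)} {L : ℕ} {e : ℝ}
  {F : J → X → ℝ} {ud : ℕ → X → Prop} {V H : J → ℕ → X → ℝ} {rs : J → ℕ → X → Prop}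
  {lm : J → ℕ → X → ℝ} {e' C2 : ℝ}

section pieces

variable (hP : Paths w L e F ud V H rs lm) {Λ : ℕ} (hΛ : Λ ≤ L)
include hP hΛ

/-- the local energy of the END value -/
theorem en_Ue (j : J) (z : X) : En g (Wr g ud (tp w L ud V H rs e' C2) Λ z)
    (Ue w L ud V H rs e' C2 j Λ) (8 * e) := by
  rintro k y ⟨h1, h2, h3, h4⟩
  rw [dot_self_eq]
  exact Ue_energy hP j hΛ h2 h4 (gd_le hP h2 hΛ h1)

/-- the END value is uniform on the window -/
theorem un_Ue (j : J) {Cg : ℝ} (hM : Mix (S j) Cg) (z : X) :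
    Un (S j) Cg (Wr g ud (tp w L ud V H rs e' C2) Λ z) (Ue w L ud V H rs e' C2 j Λ) := by
  rintro k y ⟨h1, h2, h3, h4⟩ i
  exact Ue_unif hP j hM hΛ h2 h4 (gd_le hP h2 hΛ h1) i

/-- the distance of the value at the top to the END value -/
theorem en_sub_Ue (j : J) {Cg : ℝ} (hM : Mix (S j) Cg) (hC : 0 ≤ Cg) {B : ℝ}
    (hB : ∀ k x, cd g (k + 1) x ≤ B * cd g k x) (he' : 0 ≤ e') (hC2 : 0 ≤ C2) (z : X) :
    En g (Wr g ud (tp w L ud V H rs e' C2) Λ z) (V j Λ - Ue w L ud V H rs e' C2 j Λ)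
      ((4 * (B * C2 + 3) + 2 * (1 + 2 * Cg)) * e') := by
  rintro k y ⟨h1, h2, h3, h4⟩
  rw [dot_self_eq, mul_assoc]
  exact X_dist hP j hM hC hB he' hC2 hΛ h2 h4 (gd_le hP h2 hΛ h1)

/-- the local energy of the value at the top -/
theorem en_V (j : J) {B : ℝ} (hB : ∀ k x, cd g (k + 1) x ≤ B * cd g k x) (he' : 0 ≤ e')
    (hC2 : 0 ≤ C2) (z : X) :
    En g (Wr g ud (tp w L ud V H rs e' C2) Λ z) (V j Λ)
      (16 * e + 4 * (B * C2 + 3) * e') := by
  rintro k y ⟨h1, h2, h3, h4⟩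
  have h5 := top_dist hP j hB he' hC2 hΛ h2 h4
  have h6 := (hP.path j).enV k (h2.trans hΛ) y h1
  have h7 : dot (g.cube k y) (V j Λ) (V j Λ) ≤ 2 * dot (g.cube k y) (V j k) (V j k) +
      2 * ∑ x ∈ g.cube k y, (V j Λ x - V j k x) ^ 2 := by
    rw [dot_self_eq, dot_self_eq, mul_sum, mul_sum, ← sum_add_distrib]
    refine sum_le_sum fun x _ => ?_
    nlinarith [sq_nonneg (V j Λ x - 2 * V j k x)]
  nlinarith

omit hΛ in
/-- the packing of the tops -/
theorem tops_le {Cg : ℝ} (hM : ∀ j, Mix (S j) Cg) (hC : 0 ≤ Cg) {B : ℝ}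
    (hB : ∀ k x, cd g (k + 1) x ≤ B * cd g k x) (he' : 0 < e')
    (hC2 : 4 * Fintype.card J * (1 + 2 * Cg) ≤ C2) {x : X} (hx : ud L x) :
    tops g ud (tp w L ud V H rs e' C2) L x ≤
      2 * (2 + B + 2 * B * Fintype.card J + 64 * B * Fintype.card J * (e / e')) * cd g L x := by
  refine le_trans (le_of_eq ?_) (packing hP hM hC hB he' hC2 le_rfl hx)
  unfold tops ind
  exact sum_congr rfl fun i _ => sum_congr rfl fun z _ => by congr

/-- all the static pieces of one window, for one path -/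
theorem pieces (j : J) {Cg : ℝ} (hM : Mix (S j) Cg) (hC : 0 ≤ Cg) {B : ℝ}
    (hB : ∀ k x, cd g (k + 1) x ≤ B * cd g k x) (he' : 0 ≤ e') (hC2 : 0 ≤ C2) (z : X) :
    En g (Wr g ud (tp w L ud V H rs e' C2) Λ z) (Ue w L ud V H rs e' C2 j Λ) (8 * e) ∧
    En g (Wr g ud (tp w L ud V H rs e' C2) Λ z) (V j Λ) (16 * e + 4 * (B * C2 + 3) * e') ∧
    En g (Wr g ud (tp w L ud V H rs e' C2) Λ z) (V j Λ - Ue w L ud V H rs e' C2 j Λ)
      ((4 * (B * C2 + 3) + 2 * (1 + 2 * Cg)) * e') ∧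
    Un (S j) Cg (Wr g ud (tp w L ud V H rs e' C2) Λ z) (Ue w L ud V H rs e' C2 j Λ) :=
  ⟨en_Ue hP hΛ j z, en_V hP hΛ j hB he' hC2 z, en_sub_Ue hP hΛ j hM hC hB he' hC2 z,
    un_Ue hP hΛ j hM z⟩

end pieces

end

end Vale.Agent.P141.H610
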