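import Vale.Agent.P141.H8.Rec
import Vale.Agent.P141.PL.H855.CSlot0

/-!
# P141, line W, module REC: block slots of a region, cut to the region

`cutR ud A`: the family `A` on the used cells, `0` elsewhere.  `cblk0_cut`, `cblk0_mv`,
`cblk0_st`: block families of `PL/H855/CSlot0` from data on the used cells only.
-/

namespace Vale.Agent.P141.H610

open Finset
open Vale.Agent.P141.H315 Vale.Agent.P141.PL.H318 Vale.Agent.P141.H347 Vale.Agent.P141.H297
open Vale.Agent.P141.H8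
open Vale.Agent.P141.PL.H95 (gr mem_gr card_gr)
open Vale.Agent.P141.PL.H855 (CBlk0 CSlot0)

noncomputable section

open scoped Classical

variable {X : Type*}

/-- a family cut to a region -/
def cutR (ud : ℕ → X → Prop) (A : ℕ → X → ℝ) : ℕ → X → ℝ := fun k y => if ud k y then A k y else 0

theorem cutR_of {ud : ℕ → X → Prop} {A : ℕ → X → ℝ} {k : ℕ} {y : X} (h : ud k y) :
    cutR ud A k y = A k y := if_pos h

theorem cutR_not {ud : ℕ → X → Prop} {A : ℕ → X → ℝ} {k : ℕ} {y : X} (h : ¬ ud k y) :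
    cutR ud A k y = 0 := if_neg h

theorem cd_gr (s : ℤ) (k : ℕ) (y : ℤ) : cd (gr 7 s) k y = 2 ^ (k + 7) := by
  unfold cd; rw [card_gr]; push_cast; ring

/-- **A family given on the used cells of a region is a block family.** -/
theorem cblk0_cut {s : ℤ} {gd ud ev : ℕ → ℤ → Prop} {Λ : ℕ} {x : ℤ} (hR : Rgn (gr 7 s) gd Λ x ud)
    {A : ℕ → ℤ → ℝ} {e K : ℝ} (he0 : 0 ≤ e) (hK0 : 0 ≤ K)
    (hev : ∀ k y, ud k y → ∀ z ∈ (gr 7 s).cube k y, (ev k z ↔ ev k y))
    (hA : ∀ k y, k < Λ → ud k y → ¬ ev k y → A k y = A (k + 1) y)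
    (hen : ∀ k y, ud k y → dot ((gr 7 s).cube k y) (A k) (A k) ≤ e * cd (gr 7 s) k y)
    (hp : ∀ k₀ y, ud k₀ y → ∑ i ∈ range (k₀ + 1), ∑ z ∈ (gr 7 s).cube k₀ y,
      (if ud i z ∧ ev i z then (1 : ℝ) else 0) ≤ K * cd (gr 7 s) k₀ y) :
    CBlk0 s Λ (cutR ud A) e (K + 1) := by
  set g := gr 7 s with hg
  refine ⟨⟨fun k y => (ud k y ∧ ev k y) ∨ (¬ ud k y ∧ ud (k + 1) y), ?_, ?_, ?_⟩, ?_⟩
  · -- constant on the cubes
    intro k z y hy
    have h1 : ud k y ↔ ud k z := hR.const k z y hy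
    have h2 : ud (k + 1) y ↔ ud (k + 1) z := hR.const (k + 1) z y (g.sub k z hy)
    beta_reduce
    rw [h1, h2]
    by_cases h3 : ud k z
    · rw [hev k z h3 y hy]
    · simp only [h3, false_and]
  · -- constant where nothing happens
    intro k y hk hn
    push Not at hn
    by_cases h : ud k y
    · have h1 : ud (k + 1) y := hR.up k hk y h
      rw [cutR_of h, cutR_of h1]
      exact hA k y hk h (hn.1 h)
    · rw [cutR_not h, cutR_not (hn.2 h)]
  · -- packing
    intro k₀ hk₀ x₀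
    -- the boundary of the region
    have hb : ∀ z, ∑ k ∈ range (k₀ + 1), (if ¬ ud k z ∧ ud (k + 1) z then (1 : ℝ) else 0) ≤ 1 := by
      intro z
      by_cases h : ∃ k ∈ range (k₀ + 1), ¬ ud k z ∧ ud (k + 1) z
      · obtain ⟨k, hk, h1, h2⟩ := h
        rw [sum_eq_single_of_mem k hk]
        · split_ifs <;> norm_num
        · intro i hi hik
          refine if_neg fun h3 => ?_
          have h4 := (hR.bel _ _ h2).1
          have h5 := (hR.bel _ _ h3.2).1
          rcases lt_or_gt_of_ne hik with h6 | h6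
          · exact h1 (hR.up' (by omega : i + 1 ≤ k) (by omega) h3.2)
          · exact h3.1 (hR.up' (by omega : k + 1 ≤ i) (by omega) h2)
      · push Not at h
        rw [sum_eq_zero fun k hk => if_neg fun h1 => h k hk h1.1 h1.2]
        norm_num
    have h1 : ∑ z ∈ g.cube k₀ x₀, ∑ k ∈ range (k₀ + 1),
        (if (ud k z ∧ ev k z) ∨ (¬ ud k z ∧ ud (k + 1) z) then (1 : ℝ) else 0) ≤
        ∑ z ∈ g.cube k₀ x₀, ∑ k ∈ range (k₀ + 1), (if ud k z ∧ ev k z then (1 : ℝ) else 0) +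
        ∑ z ∈ g.cube k₀ x₀, (1 : ℝ) := by
      rw [← sum_add_distrib]
      refine sum_le_sum fun z _ => ?_
      refine le_trans ?_ (add_le_add le_rfl (hb z))
      rw [← sum_add_distrib]
      refine sum_le_sum fun k _ => ?_
      by_cases h2 : ud k z ∧ ev k z
      · rw [if_pos (Or.inl h2), if_pos h2]
        have : (0 : ℝ) ≤ if ¬ ud k z ∧ ud (k + 1) z then (1 : ℝ) else 0 := by
          split_ifs <;> norm_num
        linarith
      · by_cases h3 : ¬ ud k z ∧ ud (k + 1) z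
        · rw [if_pos (Or.inr h3), if_neg h2, if_pos h3]; norm_num
        · rw [if_neg (fun h => h.elim h2 h3), if_neg h2, if_neg h3]; norm_num
    have h2 : ∑ z ∈ g.cube k₀ x₀, (1 : ℝ) = cd g k₀ x₀ := by
      rw [sum_const, nsmul_eq_mul, mul_one]; rfl
    have h3 : ∑ z ∈ g.cube k₀ x₀, ∑ k ∈ range (k₀ + 1), (if ud k z ∧ ev k z then (1 : ℝ) else 0) ≤
        K * cd g k₀ x₀ := by
      by_cases h4 : ud k₀ x₀
      · rw [sum_comm]; exact hp k₀ x₀ h4
      · rw [sum_eq_zero fun z hz => sum_eq_zero fun k hk => if_neg fun h5 => h4 ?_]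
        · exact mul_nonneg hK0 (H347.cd_pos g k₀ x₀).le
        · rw [mem_range] at hk
          exact (hR.const k₀ x₀ z hz).1 (hR.up' (by omega) hk₀ h5.1)
    have h4 : cd g k₀ x₀ = 2 ^ (k₀ + 7) := cd_gr s k₀ x₀
    rw [h2] at h1
    rw [add_mul, one_mul, ← h4]
    refine le_trans (le_of_eq ?_) (h1.trans (add_le_add h3 le_rfl))
    exact sum_congr rfl fun z _ => sum_congr rfl fun k _ => by congr
  · -- energies
    intro k _ x₀
    have h4 : cd g k x₀ = 2 ^ (k + 7) := cd_gr s k x₀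
    rw [← h4]
    by_cases h : ud k x₀
    · refine le_trans (le_of_eq ?_) (hen k x₀ h)
      unfold dot
      exact sum_congr rfl fun y hy => by rw [cutR_of ((hR.const k x₀ y hy).2 h)]
    · have h1 : dot (g.cube k x₀) (cutR ud A k) (cutR ud A k) = 0 := by
        unfold dot
        exact sum_eq_zero fun y hy => by
          rw [cutR_not (fun h' => h ((hR.const k x₀ y hy).1 h')), mul_zero]
      rw [h1]
      exact mul_nonneg he0 (H347.cd_pos g k x₀).le

/-- **A block slot (labels, hereditary packing) is a block family.** -/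
theorem cblk0_mv {s : ℤ} {gd ud : ℕ → ℤ → Prop} {Λ : ℕ} {x : ℤ} (hR : Rgn (gr 7 s) gd Λ x ud)
    {t : ℕ → ℤ → ℕ} (hl : Lab (gr 7 s) Λ t) {F : ℕ → ℤ → ℝ} {e K : ℝ} (he0 : 0 ≤ e) (hK0 : 0 ≤ K)
    (hen : ∀ k y, ud k y →
      dot ((gr 7 s).cube k y) (F (t k y)) (F (t k y)) ≤ e * cd (gr 7 s) k y)
    (hp : ∀ k y, ud k y → tops (gr 7 s) ud t k y ≤ K * cd (gr 7 s) k y) :
    CBlk0 s Λ (cutR ud (mv t F)) e (K + 1) := by
  refine cblk0_cut (ev := fun k y => t k y = k) hR he0 hK0 ?_ ?_ ?_ ?_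
  · intro k y hu z hz
    rw [hl.const k (hR.bel k y hu).1 y z hz]
  · intro k y hk hu hne
    have h1 := hl.ge k hk.le y
    have h2 : t (k + 1) y = t k y := hl.btw k hk.le y (k + 1) (by omega) (by omega)
    simp only [mv, h2]
  · intro k y hu
    refine le_trans (le_of_eq ?_) (hen k y hu)
    unfold dot mv
    exact sum_congr rfl fun z hz => by rw [hl.const k (hR.bel k y hu).1 y z hz]
  · intro k y hu
    refine le_trans (le_of_eq ?_) (hp k y hu)
    unfold tops
    exact sum_congr rfl fun i _ => sum_congr rfl fun z _ => by congr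

/-- a static function on a region is a block family -/
theorem cblk0_st {s : ℤ} {gd ud : ℕ → ℤ → Prop} {Λ : ℕ} {x : ℤ} (hR : Rgn (gr 7 s) gd Λ x ud)
    {F : ℤ → ℝ} {e : ℝ} (he0 : 0 ≤ e) (hen : En (gr 7 s) ud F e) :
    CBlk0 s Λ (cutR ud (st F)) e 1 := by
  have h := cblk0_cut (ev := fun _ _ => False) hR (A := st F) he0 le_rfl
    (fun _ _ _ _ _ => Iff.rfl) (fun _ _ _ _ _ => rfl) hen (fun k₀ y _ => by
      simp only [and_false, if_false, sum_const_zero, zero_mul, le_refl])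
  simpa using h

/-- the slot of a static function -/
theorem cslot0_st {s : ℤ} {gd ud : ℕ → ℤ → Prop} {Λ : ℕ} {x : ℤ} (hR : Rgn (gr 7 s) gd Λ x ud)
    {F : ℤ → ℝ} {e : ℝ} (he0 : 0 < e) (hen : En (gr 7 s) ud F e) :
    CSlot0 s Λ (cutR ud (st F)) (68 * √e) := by
  refine ((cblk0_st hR he0.le hen).toCSlot0 he0 zero_le_one).mono ?_
  have h1 : √(e * (1 + 1152 * 1)) = √e * √1153 := by
    rw [Real.sqrt_mul he0.le]; norm_num
  have h2 : √(1153 : ℝ) ≤ 34 := by
    rw [Real.sqrt_le_left (by norm_num)]; norm_num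
  rw [h1]
  have := mul_le_mul_of_nonneg_left h2 (Real.sqrt_nonneg e)
  linarith

/-- the slot of a block slot -/
theorem cslot0_mv {s : ℤ} {gd ud : ℕ → ℤ → Prop} {Λ : ℕ} {x : ℤ} (hR : Rgn (gr 7 s) gd Λ x ud)
    {t : ℕ → ℤ → ℕ} {F : Fin 2 → ℕ → ℤ → ℝ} {e K : ℝ} (he0 : 0 < e) (hK1 : 1 ≤ K)
    (hF : Fam2 (gr 7 s) ud Λ t F e K) (j : Fin 2) :
    CSlot0 s Λ (cutR ud (mv t (F j))) (100 * √(e * K)) := by
  refine ((cblk0_mv hR hF.lab he0.le (by linarith) (hF.en j) hF.pack).toCSlot0 he0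
    (by linarith)).mono ?_
  have h1 : e ≤ e * K := le_mul_of_one_le_right he0.le hK1
  have h2 : √(e * (1 + 1152 * (K + 1))) ≤ 50 * √(e * K) := by
    rw [Real.sqrt_le_left (by positivity), mul_pow, Real.sq_sqrt (by positivity)]
    nlinarith
  linarith

end

end Vale.Agent.P141.H610
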