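import Vale.Agent.P141.H610.EndGlue
import Vale.Agent.P141.PL.H855.StepDefs

/-!
# P141, line W, module REC: the black box for the difference of `P` and its end value

`BoxHyp`: the black box for four moving slots on a region (`H748/MbbW`), in the letters of
`PL/H855/StepDefs`.  `movHyp_of_box`: `MovHyp` of `EndGlue`.
-/

namespace Vale.Agent.P141.H610

open Finset
open Vale.Agent.P141.H315 Vale.Agent.P141.PL.H318 Vale.Agent.P141.H347 Vale.Agent.P141.H297
open Vale.Agent.P141.H8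
open Vale.Agent.P141.PL.H95 (gr mem_gr card_gr)
open Vale.Agent.P141.PL.H855 (CBlk0 CSlot0 N4 TR T4_toNV)

noncomputable section

open scoped Classical

variable {α : Type*} {s : ℤ}

/-- the black box for four moving slots on the regions below a used top -/
def BoxHyp (nv : N4 (gr 7 s) α) (gd : ℕ → ℤ → Prop) (CP : ℝ) : Prop :=
  ∀ L x ud, Rgn (gr 7 s) gd L x ud → ud L x → ∀ (A : Fin 4 → ℕ → ℤ → ℝ) (S : Fin 4 → ℝ),
    (∀ j, CSlot0 s L (cutR ud (A j)) (S j)) → TR nv ud A ≤ CP * (∏ j, S j) * 2 ^ L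

variable {nv : N4 (gr 7 s) α} {gd : ℕ → ℤ → Prop} {CP : ℝ}

/-- the black box in the letters of `H8/Cell` -/
theorem T4_of_box (hb : BoxHyp nv gd CP) (σ : Equiv.Perm (Fin 4)) {L : ℕ} {x : ℤ}
    {ud : ℕ → ℤ → Prop} (hR : Rgn (gr 7 s) gd L x ud) (hx : ud L x) {A B C D : ℕ → ℤ → ℝ}
    {a b c d : ℝ} (hA : CSlot0 s L (cutR ud A) a) (hB : CSlot0 s L (cutR ud B) b)
    (hC : CSlot0 s L (cutR ud C) c) (hD : CSlot0 s L (cutR ud D) d) :
    T4 (nv.toNV σ) ud A B C D ≤ CP * (a * b * c * d) / 128 * cd (gr 7 s) L x := by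
  rw [T4_toNV]
  have h1 := hb L x ud hR hx (fun j => ![A, B, C, D] (σ j)) (fun j => ![a, b, c, d] (σ j))
    (fun j => by
      generalize σ j = m
      fin_cases m
      exacts [hA, hB, hC, hD])
  refine h1.trans (le_of_eq ?_)
  have h2 : ∏ j, ![a, b, c, d] (σ j) = a * b * c * d := by
    rw [Equiv.prod_comp σ (fun j => ![a, b, c, d] j), Fin.prod_univ_four]
    rfl
  rw [h2, cd_gr, pow_add]
  ring

/-- **`MovHyp` from the black box.** -/
theorem movHyp_of_box (hb : BoxHyp nv gd CP) (σ : Equiv.Perm (Fin 4)) {GP G1 : ℤ → ℝ}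
    {P : ℕ → ℤ → ℝ} {SP eG e K : ℝ} (heG : 0 < eG) (he : 0 < e) (hK : 1 ≤ K)
    (hP : ∀ L x ud, Rgn (gr 7 s) gd L x ud → ud L x →
      CSlot0 s L (cutR ud fun k => GP - P k) SP)
    (hG : En (gr 7 s) gd G1 eG) :
    MovHyp (nv.toNV σ) gd GP G1 P e K (CP * (SP * (68 * √eG) * (10 ^ 4 * (e * K))) / 128) := by
  intro L x ud hR hx t F hF
  have h1 := T4_of_box hb σ hR hx (hP L x ud hR hx)
    (cslot0_st hR heG fun k y hy => hG k y (hR.sub k y hy))
    (cslot0_mv hR he hK hF 0) (cslot0_mv hR he hK hF 1)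
  refine h1.trans (le_of_eq ?_)
  have h2 : √(e * K) * √(e * K) = e * K := Real.mul_self_sqrt (by positivity)
  have h3 : SP * (68 * √eG) * (100 * √(e * K)) * (100 * √(e * K)) =
      SP * (68 * √eG) * (10 ^ 4 * (√(e * K) * √(e * K))) := by ring
  rw [h3, h2]

/-- **`Rnd.mbb` of `H8/Step` from the black box**: two static functions of energy `ez`. -/
theorem mbb_of_box (hb : BoxHyp nv gd CP) (σ : Equiv.Perm (Fin 4)) {GP G1 : ℤ → ℝ}
    {P : ℕ → ℤ → ℝ} {SP eG ez : ℝ} (heG : 0 < eG) (hez : 0 < ez)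
    (hP : ∀ L x ud, Rgn (gr 7 s) gd L x ud → ud L x →
      CSlot0 s L (cutR ud fun k => GP - P k) SP)
    (hG : En (gr 7 s) gd G1 eG) {L : ℕ} {x : ℤ} {ud : ℕ → ℤ → Prop}
    (hR : Rgn (gr 7 s) gd L x ud) (hx : ud L x) {U Z : ℤ → ℝ} (hU : En (gr 7 s) ud U ez)
    (hZ : En (gr 7 s) ud Z ez) :
    T4 (nv.toNV σ) ud (fun k => GP - P k) (st G1) (st U) (st Z) ≤
      CP * (SP * (68 * √eG) * (68 ^ 2 * ez)) / 128 * cd (gr 7 s) L x := by
  have h1 := T4_of_box hb σ hR hx (hP L x ud hR hx)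
    (cslot0_st hR heG fun k y hy => hG k y (hR.sub k y hy))
    (cslot0_st hR hez hU) (cslot0_st hR hez hZ)
  refine h1.trans (le_of_eq ?_)
  have h2 : √ez * √ez = ez := Real.mul_self_sqrt hez.le
  have h3 : SP * (68 * √eG) * (68 * √ez) * (68 * √ez) =
      SP * (68 * √eG) * (68 ^ 2 * (√ez * √ez)) := by ring
  rw [h3, h2]

end

end Vale.Agent.P141.H610
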